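import Vale.Agent.P014U.Dr.Kol
import Vale.Agent.P014U.X4F.En.Rep
import Vale.Agent.P014U.X4S.A.Defs
import Vale.Agent.P014U.X4F.Pat.Ul
import Vale.Agent.P014T.Pg.Bas
import Vale.Agent.P004S.Bas3
import Vale.Agent.P022K.CH.Mink

/-! # P014U, block Pg: elements of the Galois group for the Kolyvagin bound (helper7) -/

set_option linter.all false

open NumberField Matrix

noncomputable section

namespace Vale.Agent.P014U.Pg

open Vale.Agent.P022 (Qb GQ IsConj)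
open Vale.Agent.P027M.S (Inert)
open Vale.Agent.P022E.GW (Ov Fb)
open Vale.Agent.P004F (M2)
open Vale.Agent.P014U.X4F.En (Big rep_ok)
open Vale.Agent.P014U.X4S (Rep Tr ep)
open Vale.Agent.P014U.X4S.Aq (cz cy cz_spec)
open Vale.Agent.P014U.X4M.TE (mt rep det_cyc)
open Dr

export Vale.Agent.P014T.Pg (comm_Ha)

export Vale.Agent.P014U.X4F.En (ex_rep)

variable [Pp]

theorem dvd_iff {n : ℕ} {x : ℤ_[pp]} : (pp : ℤ_[pp]) ^ n ∣ x ↔ PadicInt.toZModPow n x = 0 := by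
  rw [← RingHom.mem_ker, PadicInt.ker_toZModPow, Ideal.mem_span_singleton]

theorem Hm_two {n : ℕ} {g : GQ} : g ∈ Hm (pp ^ n) ↔ (pp : ℤ_[pp]) ^ n ∣ cz g - 1 := by
  rw [dvd_iff, map_sub, map_one, sub_eq_zero]
  obtain ⟨ζ, χ, h1, -, h2, h3⟩ := ex_cy (pp ^ n)
  have := h3 g _ (cz_spec g h1.pow_eq_one)
  rw [h2, ← Units.val_inj, this, ZMod.natCast_zmod_val, Units.val_one]

theorem cz_Ha {g : GQ} (h : g ∈ Ha) : (cz g : ℤ_[pp]) = 1 :=
  PadicInt.ext_of_toZModPow.1 fun n => by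
    have := Hm_two.1 (Ha_le (M := pp ^ n) (pow_ne_zero n pp_ne) h)
    rwa [dvd_iff, map_sub, sub_eq_zero] at this

theorem cz_conj {c : GQ} (h : IsConj c) : (cz c : ℤ_[pp]) = -1 := 
  PadicInt.ext_of_toZModPow.1 fun n => by
    rw [map_neg, map_one, ← P022.H853.cyc_conj (m := pp ^ n) h, ← X4M.TE.cz_mod]; rfl

theorem cz_inert {l : ℕ} {P : Ideal (𝓞 Qb)} (o : Ov l P) (h : l ≠ pp) {g : GQ} (i : Inert P g) :
    (cz g : ℤ_[pp]) = 1 := Subtype.ext (X4S.Aq.cy_in o h i)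

theorem cz_fb {l : ℕ} {P : Ideal (𝓞 Qb)} (o : Ov l P) (h : l ≠ pp) {φ : GQ} (f : Fb l P φ) :
    (cz φ : ℤ_[pp]) = l := PadicInt.ext_of_toZModPow.1 fun n => by
  obtain ⟨ζ, χ, h1, -, -, h3⟩ := ex_cy (pp ^ n)
  rw [map_natCast, ← h3 φ l (root_cong o (nd_two o h n) f h1.pow_eq_one),
    h3 φ _ (cz_spec φ h1.pow_eq_one), ZMod.natCast_zmod_val]

/-- one-units have no torsion -/
theorem one_of_pow {x : ℤ_[pp]} (h : (pp : ℤ_[pp]) ∣ x - 1) {n : ℕ} (hn : n ≠ 0) (e : x ^ n = 1) :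
    x = 1 := by
  obtain ⟨a, m, hm, rfl⟩ := Nat.exists_eq_pow_mul_and_not_dvd hn pp one_lt.ne'
  have p := PadicInt.prime_p (p := pp)
  have nd {y : ℤ_[pp]} (h : (pp : ℤ_[pp]) ∣ y - 1) : ¬ (pp : ℤ_[pp]) ∣ y := fun d =>
    p.not_dvd_one (by simpa using dvd_sub d h)
  have d := h.trans (sub_one_dvd_pow_sub_one x (pp ^ a))
  have k := emultiplicity_pow_sub_pow_of_prime p d (nd d) (n := m) fun c => hm (by
    rw [← PadicInt.norm_lt_one_iff_dvd, PadicInt.norm_natCast_lt_one_iff] at c; exact c)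
  rw [← pow_mul, e, one_pow, sub_self, emultiplicity_zero, ← one_pow (pp ^ a),
    emultiplicity_pow_prime_pow_sub_pow_prime_pow p pp_odd h (nd h), eq_comm] at k
  exact by_contra fun c => emultiplicity_eq_top.1 ((WithTop.add_eq_top.1 k).resolve_right (ENat.coe_ne_top a))
    (FiniteMultiplicity.of_prime_left p (sub_ne_zero.2 c))

theorem cz_pow (g : GQ) : (pp : ℤ_[pp]) ∣ (cz g : ℤ_[pp]) ^ (pp - 1) - 1 := by
  rw [← Ideal.mem_span_singleton, ← PadicInt.maximalIdeal_eq_span_p, ← PadicInt.ker_toZMod,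
    RingHom.mem_ker, map_sub, map_pow, map_one, ZMod.pow_card_sub_one_eq_one ((cz g).isUnit.map _).ne_zero,
    sub_self]

/-- inertia at `pp` contains an element whose cyclotomic character has infinite order -/
theorem ex_in {P : Ideal (𝓞 Qb)} (o : Ov pp P) :
    ∃ g, Inert P g ∧ Function.Injective fun m : ℕ => (cz g : ℤ_[pp]) ^ m := by
  obtain ⟨g, h1, h2⟩ : ∃ g, Inert P g ∧ (cz g : ℤ_[pp]) ^ (pp - 1) ≠ 1 := by
    by_contra! c
    let f : GQ →* Zn 2 := (powMonoidHom (pp - 1)).comp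
      ((PadicInt.toZModPow 2).toMonoidHom.comp ((Units.coeHom _).comp cz))
    have k := P022K.CH.mink_top f.ker (Subgroup.isOpen_mono (H₁ := Hm (pp ^ 2)) (fun g m => by
      have := Hm_two.1 m
      rw [dvd_iff, map_sub, map_one, sub_eq_zero] at this
      exact (congrArg (· ^ (pp - 1)) this).trans (one_pow _)) (Hm_open (pow_ne_zero 2 pp_ne)))
      fun l Q a g i => by
        show PadicInt.toZModPow 2 (cz g : ℤ_[pp]) ^ (pp - 1) = 1
        by_cases e : l = pp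
        · obtain ⟨t, b, -⟩ := P004S.ex_conj o (e ▸ a)
          have := c _ (b g i)
          rw [map_mul, map_mul, map_inv, inv_mul_cancel_comm] at this
          rw [← map_pow, this, map_one]
        · rw [cz_inert a e i, map_one, one_pow]
    have u := ZMod.orderOf_one_add_prime pp_prime pp_ne_two 1
    obtain ⟨l, b, a, e⟩ := Nat.forall_exists_prime_gt_and_eq_mod (q := pp ^ 2) (a := 1 + pp)
      (isOfFinOrder_iff_pow_eq_one.1 (orderOf_pos_iff.1 (u ▸ pow_pos pp_pos 1)) |>.elim fun _ h =>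
        .of_pow_eq_one h.2 h.1.ne') pp
    obtain ⟨pl⟩ := X4S.pl_ex
    have : PadicInt.toZModPow 2 (cz (pl.σ l) : ℤ_[pp]) ^ (pp - 1) = 1 := k.ge (Subgroup.mem_top _)
    rw [cz_fb (pl.ov l a) b.ne' (pl.fb l a), map_natCast, e, ← orderOf_dvd_iff_pow_eq_one, u,
      pow_one] at this
    exact absurd (Nat.le_of_dvd (Nat.sub_pos_of_lt one_lt) this) (by have := pp_pos; omega)
  refine ⟨g, h1, fun m m' e => by_contra fun c => h2 ?_⟩
  have := isOfFinOrder_iff_pow_eq_one.1 (not_not.1 fun k => c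
    (injective_pow_iff_not_isOfFinOrder.2 k (Units.ext (by simpa using e) : cz g ^ m = cz g ^ m')))
  obtain ⟨n, n0, hn⟩ := this
  exact one_of_pow (cz_pow g) n0.ne' (by
    rw [← pow_mul, mul_comm, pow_mul, ← Units.val_pow_eq_pow_val, hn, Units.val_one, one_pow])

open Polynomial in
/-- the cyclotomic twist without invariants of inertia at `pp` -/
theorem ex_tw (r : GQ →* M2 ℤ_[pp]) {P : Ideal (𝓞 Qb)} (o : Ov pp P) (k : ℕ) :
    ∃ g M, Inert P g ∧ (pp - 1) * pp ^ k ∣ M ∧ ((cz g : ℤ_[pp]) ^ M • r g - 1).det ≠ 0 ∧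
      ((cz g⁻¹ : ℤ_[pp]) ^ M • r g - 1).det ≠ 0 := by
  obtain ⟨g, h1, h2⟩ := ex_in o
  have f (a b c : ℤ_[pp]) (h : a ≠ 0 ∨ c ≠ 0) : {x | a * x ^ 2 + b * x + c = 0}.Finite := by
    refine (finite_setOf_isRoot (p := C a * X ^ 2 + C b * X + C c) fun e => ?_).subset fun x e => by
      simpa using e
    have e0 := congrArg (coeff · 0) e
    have e2 := congrArg (coeff · 2) e
    simp [coeff_X, coeff_C] at e0 e2
    exact h.elim (· e2) (· e0)
  obtain ⟨_, ⟨m, rfl⟩, hm⟩ := (Set.infinite_range_of_injective (h2.comp (mul_right_injective₀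
    (a := (pp - 1) * pp ^ k) (mul_ne_zero (Nat.sub_ne_zero_of_lt one_lt) (pow_ne_zero k pp_ne))))).exists_notMem_finite
    ((f (r g).det (-(r g).trace) 1 (.inr one_ne_zero)).union (f 1 (-(r g).trace) (r g).det (.inl one_ne_zero)))
  refine ⟨g, (pp - 1) * pp ^ k * m, h1, ⟨m, rfl⟩, fun e => hm (.inl ?_), fun e => hm (.inr ?_)⟩
  · simp [det_fin_two, trace_fin_two] at e ⊢
    linear_combination e
  · have u : (cz g : ℤ_[pp]) ^ ((pp - 1) * pp ^ k * m) * (cz g⁻¹ : ℤ_[pp]) ^ ((pp - 1) * pp ^ k * m) = 1 := by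
      rw [← mul_pow, ← Units.val_mul, ← map_mul, mul_inv_cancel, map_one, Units.val_one, one_pow]
    simp only [Set.mem_setOf_eq, Function.comp]
    generalize (cz g⁻¹ : ℤ_[pp]) ^ ((pp - 1) * pp ^ k * m) = y at *
    generalize (cz g : ℤ_[pp]) ^ ((pp - 1) * pp ^ k * m) = x at *
    simp [det_fin_two, trace_fin_two] at e ⊢
    linear_combination x ^ 2 * e - ((r g 0 0 * r g 1 1 - r g 0 1 * r g 1 0) * (x * y + 1) -
      x * (r g 0 0 + r g 1 1)) * u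

/-- **Kolyvagin primes** -/
theorem kpx {N M : ℕ} (ρ : GQ →* M2 (Zn N)) (S : Finset ℕ) {R : Type} [CommRing R] (ι : Zn N →+* R)
    (ψ : GQ →* R) (m : M ≠ 0) {V : Subgroup GQ} (hV : IsOpen (V : Set GQ))
    (lc : ∀ w ∈ V, aa ρ ι ψ w = 1) {g : GQ} (h1 : g ∈ Hm (pp ^ (N + 2))) (h2 : (1 - aa ρ ι ψ g).det = 0)
    {W : Subgroup GQ} (hW : IsOpen (W : Set GQ)) (T : Finset ℕ) :
    ∃ k : Kp ρ S ι ψ M, k.l ∉ T ∧ g⁻¹ * k.φ ∈ W ∧ aa ρ ι ψ k.φ = aa ρ ι ψ g := by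
  obtain ⟨l, φ, Q, a, o, f, ⟨⟨b1, b2⟩, b3⟩, -⟩ := P004F.Pt.cheb g (W := W ⊓ V ⊓ Hm (pp ^ (N + 2)))
    ((hW.inter hV).inter (Hm_open (pow_ne_zero _ pp_ne))) ∅ (T ∪ S ∪ M.primeFactors ∪ {pp})
  simp only [Finset.mem_union, not_or, Finset.mem_singleton, Nat.mem_primeFactors] at a
  obtain ⟨τ, t⟩ := ex_gn o a.2
  have e : aa ρ ι ψ φ = aa ρ ι ψ g := by rw [← mul_inv_cancel_left g φ, aa_mul, lc _ b2, mul_one]
  refine ⟨⟨l, Q, φ, τ, o, f, t, a.1.1.2, fun d => a.1.2 ⟨o.1, d, m⟩, ?_, e ▸ h2⟩, a.1.1.1, b1, e⟩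
  obtain ⟨ζ, χ, c1, -, c2, c3⟩ := ex_cy (pp ^ (N + 2))
  have := c3 φ l (root_cong o (nd_two o a.2 _) f c1.pow_eq_one)
  rw [(c2 φ).1 (mul_inv_cancel_left g φ ▸ mul_mem h1 b3), Units.val_one, ← Nat.cast_one,
    ZMod.natCast_eq_natCast_iff'] at this
  exact this.symm.trans (Nat.mod_eq_of_lt (Nat.one_lt_pow (by omega) one_lt))

theorem un_ne {x : ℤ_[pp]} (h : x ≠ 0) : ∃ c : ℕ, x ∣ pp ^ c :=
  ⟨x.valuation, ((PadicInt.unitCoeff h)⁻¹ : ℤ_[pp]ˣ), (Units.eq_mul_inv_iff_mul_eq _).2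
    ((mul_comm _ _).trans (PadicInt.unitCoeff_spec h).symm)⟩

variable {A B : ℤ} (hD : 4 * (A : ℚ) ^ 3 + 27 * (B : ℚ) ^ 2 ≠ 0)

theorem tr_iff {n : ℕ} {g : GQ} :
    Tr (rep hD) n g ↔ ∀ i i', (pp : ℤ_[pp]) ^ n ∣ (mt hD g - 1) i i' := by
  refine forall₂_congr fun i i' => ?_
  have : (X4S.mt (rep hD) g - 1) i i' = (((mt hD g - 1) i i' : ℤ_[pp]) : ℚ_[pp]) := by
    rw [show X4S.mt (rep hD) g = (mt hD g).map (algebraMap ℤ_[pp] ℚ_[pp]) from rfl]
    by_cases h : i = i' <;> simp [one_apply, h]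
  rw [this, X4F.Pat.dvd_iff_norm, PadicInt.padic_norm_e_of_padicInt, X4S.ip_pow]

/-- the kernel of the reduction modulo `pp ^ n` -/
def Kr (r : GQ →* M2 ℤ_[pp]) (n : ℕ) : Subgroup GQ :=
  ((PadicInt.toZModPow n).mapMatrix.toMonoidHom.comp r).ker

instance (r : GQ →* M2 ℤ_[pp]) (n : ℕ) : (Kr r n).Normal := MonoidHom.normal_ker _

theorem mem_Kr {r : GQ →* M2 ℤ_[pp]} {n : ℕ} {g : GQ} :
    g ∈ Kr r n ↔ ∀ i i', (pp : ℤ_[pp]) ^ n ∣ (r g - 1) i i' := by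
  rw [Kr, MonoidHom.mem_ker, ← sub_eq_zero, ← map_one (PadicInt.toZModPow n).mapMatrix]
  refine (Iff.of_eq (congrArg (· = 0) (map_sub (PadicInt.toZModPow n).mapMatrix (r g) 1).symm)).trans ?_
  rw [← Matrix.ext_iff]
  exact forall₂_congr fun i i' => dvd_iff.symm

theorem Kr_open (n : ℕ) : IsOpen (Kr (mt hD) n : Set GQ) := by
  obtain ⟨S, h, -⟩ := ex_rep hD
  rw [show Kr (mt hD) n = h.Kn n from Subgroup.ext fun g => mem_Kr.trans (tr_iff hD).symm]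
  exact h.Kn_open n

theorem Kr_Hm {n : ℕ} {g : GQ} (h : g ∈ Kr (mt hD) n) : g ∈ Hm (pp ^ n) := by
  rw [Hm_two, show (cz g : ℤ_[pp]) = _ from (det_cyc hD g).symm, dvd_iff, map_sub, map_one, RingHom.map_det, show RingHom.mapMatrix _ _ = 1 from h, det_one,
    sub_self]

/-- a big element which fixes all roots of unity -/
theorem big : ∃ k ∈ Ha, Big (rep hD) k :=
  (X4F.En.big0 hD).elim fun x h => h.elim fun g h => ⟨_, comm_Ha x g, h⟩

/-- the element `u` of the perturbation; it also serves as `g₀` of the row `SHP` -/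
theorem ex_u (k : ℕ) : ∃ u ∈ Ha, u ∈ Kr (mt hD) k ∧ ∃ w : ℤ_[pp], (mt hD u - 1).det = w ∧
    (mt hD u).det = 1 ∧ (mt hD u).trace = 2 - w ∧ ((pp : ℤ_[pp]) ^ 2) ^ k ∣ w ∧ w ≠ 0 ∧ w ≠ 4 := by
  obtain ⟨S, h, -⟩ := ex_rep hD
  obtain ⟨u, h1, h2⟩ := big hD
  have m := (Kr (mt hD) (k + 2)).pow_index_mem u
  have b := h2.pow h (P004S.idx_ne (Kr_open hD (k + 2)))
  have a := pow_mem h1 (Kr (mt hD) (k + 2)).index
  generalize u ^ _ = v at *
  have d : (mt hD v).det = 1 := (det_cyc hD v).trans (cz_Ha a)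
  choose Y hY using mem_Kr.1 m
  have e : (mt hD v - 1).det = (pp ^ 2) ^ k * (pp ^ 4 * (of Y).det) := by
    rw [show mt hD v - 1 = (pp : ℤ_[pp]) ^ (k + 2) • of Y from Matrix.ext hY, Matrix.det_smul, Fintype.card_fin]
    ring
  have t : (mt hD v).trace = 2 - (mt hD v - 1).det := by
    rw [det_fin_two] at d
    simp [det_fin_two, trace_fin_two]
    linear_combination d
  refine ⟨v, a, mem_Kr.2 fun i j => (pow_dvd_pow _ (by omega)).trans (mem_Kr.1 m i j), _, rfl, d, t,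
    ⟨_, e⟩, fun z => b.ne ?_, fun z => ?_⟩
  · rw [z, sub_zero] at t
    exact (AddMonoidHom.map_trace (algebraMap ℤ_[pp] ℚ_[pp]) _).symm.trans (by rw [t]; rfl)
  · have p := PadicInt.prime_p (p := pp)
    exact p.not_unit (isUnit_of_dvd_unit (show (pp : ℤ_[pp]) ∣ 2 ^ 2 from
      ⟨(pp ^ 2) ^ k * (pp ^ 3 * (of Y).det), by linear_combination e - z⟩) (unit_two.pow 2))

/-- Burnside over the integers -/
theorem abs : ∃ e : ℕ, ∀ Y : M2 ℤ_[pp], (pp : ℤ_[pp]) ^ e • Y ∈ Submodule.span ℤ_[pp] (Set.range (mt hD)) := by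
  obtain ⟨S, hr, -⟩ := ex_rep hD
  obtain ⟨c, hc⟩ : ∃ c, IsConj c := P004M.TE.exists_isConj hD
  let f := algebraMap ℤ_[pp] ℚ_[pp]
  let ρ : GQ →* M2 ℚ_[pp] := (Units.coeHom _).comp (rep hD)
  have h := P004F.Ch.burn ρ two_ne_zero hr.irr (P004F.Pt.cj_sq hc) (by
    show (f.mapMatrix (mt hD c)).det = -1
    rw [← RingHom.map_det, X4M.TE.det_conj _ hc, map_neg, map_one])
  set L := Submodule.span ℤ_[pp] (Set.range (mt hD))
  let F : M2 ℤ_[pp] →ₗ[ℤ_[pp]] M2 ℚ_[pp] := (Algebra.linearMap ℤ_[pp] ℚ_[pp]).mapMatrix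
  have k (p : Fin 2 × Fin 2) : ∃ n : ℕ, (pp : ℤ_[pp]) ^ n • single p.1 p.2 1 ∈ L := by
    obtain ⟨t, ht⟩ := multiple_mem_span_of_mem_localization_span (nonZeroDivisors ℤ_[pp]) ℚ_[pp]
      (Set.range ρ) (F (single p.1 p.2 1)) (h ▸ Submodule.mem_top)
    rw [show Set.range ρ = F '' Set.range (mt hD) from (Set.range_comp F (mt hD)), ← Submodule.map_span,
      Submonoid.smul_def, ← map_smul] at ht
    obtain ⟨y, m, e⟩ := ht
    obtain rfl : y = _ := Matrix.map_injective (IsFractionRing.injective ℤ_[pp] ℚ_[pp]) e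
    obtain ⟨n, y, e⟩ := un_ne (nonZeroDivisors.ne_zero t.2)
    exact ⟨n, by rw [e, mul_comm, mul_smul]; exact L.smul_mem _ m⟩
  choose n m using k
  refine ⟨∑ p, n p, fun Y => ?_⟩
  rw [matrix_eq_sum_single Y, ← Finset.sum_product', Finset.smul_sum]
  refine sum_mem fun p _ => ?_
  obtain ⟨c, hc⟩ := Nat.exists_eq_add_of_le (Finset.single_le_sum (f := n) (fun _ _ => Nat.zero_le _)
    (Finset.mem_univ p))
  have := L.smul_mem (pp ^ c * Y p.1 p.2) (m p)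
  rwa [smul_smul, smul_single, smul_eq_mul, mul_one, mul_right_comm, ← pow_add, add_comm c, ← hc,
    ← smul_eq_mul, ← smul_single] at this

end Vale.Agent.P014U.Pg
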