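import Vale.Agent.P014U.Pg.Bas
import Vale.Agent.P014U.Kq.Sy
import Vale.Agent.P014T.Pg.Qd

/-! # P014U, block Pg: the algebra of the perturbation (helper7) -/

set_option linter.all false

open Matrix Submodule Set

noncomputable section

namespace Vale.Agent.P014U.Pg

open Vale.Agent.P022 (GQ IsConj)
open Kq (M2 Un Gl)

export Vale.Agent.P014T.Pg (Jm Jm_det Jm_act)

variable [Pp] {O : Type} [CommRing O] (ζ : ℤ_[pp] →+* O) {w : ℤ_[pp]} {s : O}

theorem un_map {x : ℤ_[pp]} (h : x ≠ 0) : Un (ζ x) :=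
  (un_ne h).imp fun c e => by simpa only [map_pow, map_natCast] using map_dvd ζ e

theorem un_of {x y : O} (h : Un (x * y)) : Un x := h.imp fun _ => dvd_of_mul_right_dvd

/-- `s` is a root of `s ^ 2 + w s + w` -/
def Rt (w : ℤ_[pp]) (s : O) : Prop := s * s = -ζ w - ζ w * s

variable {ζ}

theorem Rt.cj (h : Rt ζ w s) : Rt ζ w (-ζ w - s) := by unfold Rt at *; linear_combination h

theorem Rt.inv (h : Rt ζ w s) : (1 + s) * (1 + (-ζ w - s)) = 1 := by
  unfold Rt at h; linear_combination -h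

theorem Rt.map {O' : Type} [CommRing O'] (h : Rt ζ w s) (f : O →+* O') : Rt (f.comp ζ) w (f s) := by
  simpa [Rt] using congrArg f h

theorem Rt.un (h : Rt ζ w s) (w0 : w ≠ 0) : Un s :=
  un_of (y := -ζ w - s) (by
    rw [show s * (-ζ w - s) = ζ w by unfold Rt at h; linear_combination -h]; exact un_map ζ w0)

theorem Rt.nil (h : Rt ζ w s) (h2 : IsNilpotent (pp : O)) (d : (pp : ℤ_[pp]) ∣ w) : IsNilpotent s := by
  obtain ⟨v, rfl⟩ := d
  refine .of_pow (m := 2) ?_
  rw [show s ^ 2 = pp * (-ζ v - ζ v * s) by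
    unfold Rt at h; rw [map_mul, map_natCast] at h; linear_combination h]
  exact (Commute.all _ _).isNilpotent_mul_right h2

variable {U : M2 ℤ_[pp]}

theorem Rt.det (h : Rt ζ w s) (d : U.det = 1) (t : U.trace = 2 - w) :
    ((1 + s) • U.map ζ - 1).det = 0 := by
  have a := congrArg ζ d
  have b := congrArg ζ t
  simp only [det_fin_two, trace_fin_two, map_sub, map_mul, map_add, map_one, map_ofNat] at a b
  unfold Rt at h
  simp [det_fin_two]
  linear_combination (1 + s) ^ 2 * a - (1 + s) * b + h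

theorem Rt.tr (h : Rt ζ w s) (t : U.trace = 2 - w) (w0 : w ≠ 0) (w4 : w ≠ 4) :
    Un ((1 + s) • U.map ζ - 1).trace := by
  have b := congrArg ζ t
  simp only [trace_fin_two, map_sub, map_add, map_ofNat] at b
  refine un_of (y := (1 + (-ζ w - s)) * (2 - ζ w) - 2) ?_
  refine (congrArg Un ?_).mpr (un_map ζ (mul_ne_zero w0 (sub_ne_zero.2 w4.symm)))
  unfold Rt at h
  simp [trace_fin_two, map_ofNat]
  linear_combination (1 + s) * ((1 + (-ζ w - s)) * (2 - ζ w) - 2) * b - (2 - ζ w) ^ 2 * h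

theorem Jm_un : Un (Jm O).det := ⟨0, by simp [Jm_det]⟩

/-- an involution of determinant `-1` has a primitive fixed vector -/
theorem ex_gp {C : M2 ℤ_[pp]} (h : C * C = 1) (d : C.det = -1) :
    ∃ gp v y : Fin 2 → ℤ_[pp], 1 + C = vecMulVec gp v ∧ y ⬝ᵥ gp = 1 ∧ C *ᵥ gp = gp := by
  have h1 : C * (1 + C) = 1 + C := by rw [mul_add, h, mul_one, add_comm]
  have d0 : (1 + C).det = 0 := by
    have := congrArg det h1
    rw [det_mul, d] at this
    exact (mul_eq_zero.1 (by linear_combination -this)).resolve_left two_ne_zero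
  have e0 : 1 + C ≠ 0 := fun k => by
    rw [eq_neg_of_add_eq_zero_right k, det_neg, det_one, Fintype.card_fin] at d
    exact two_ne_zero (α := ℤ_[pp]) (by linear_combination d)
  generalize 1 + C = E at *
  obtain ⟨⟨i, j⟩, m⟩ : ∃ p : Fin 2 × Fin 2, ∀ q : Fin 2 × Fin 2, E p.1 p.2 ∣ E q.1 q.2 := by
    have : ∀ s : Finset (Fin 2 × Fin 2), ∃ p : Fin 2 × Fin 2, ∀ q ∈ s, E p.1 p.2 ∣ E q.1 q.2 := fun s => by
      induction s using Finset.induction with
      | empty => exact ⟨0, by simp⟩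
      | insert a s _ ih =>
        obtain ⟨p, hp⟩ := ih
        rcases ValuationRing.dvd_total (E p.1 p.2) (E a.1 a.2) with k | k
        · exact ⟨p, Finset.forall_mem_insert .. |>.2 ⟨k, hp⟩⟩
        · exact ⟨a, Finset.forall_mem_insert .. |>.2 ⟨dvd_rfl, fun q m => k.trans (hp q m)⟩⟩
    exact (this Finset.univ).imp fun p k q => k q (Finset.mem_univ q)
  have n : E i j ≠ 0 := fun k => e0 (Matrix.ext fun a b => zero_dvd_iff.1 (k ▸ m (a, b)))
  choose g hg using fun a => m (a, j)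
  have g1 : g i = 1 := mul_left_cancel₀ n ((hg i).symm.trans (mul_one _).symm)
  refine ⟨g, E i, Pi.single i 1, Matrix.ext fun a b => mul_left_cancel₀ n ?_, by simp [g1],
    funext fun a => mul_left_cancel₀ n ?_⟩
  · rw [vecMulVec_apply, ← mul_assoc, ← hg a]
    rw [det_fin_two] at d0
    fin_cases a <;> fin_cases b <;> fin_cases i <;> fin_cases j <;> simp <;>
      first | ring1 | linear_combination d0 | linear_combination -d0
  · rw [← hg a, ← congrFun₂ h1 a j]
    simp only [mulVec, dotProduct, mul_apply, Finset.mul_sum]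
    exact Finset.sum_congr rfl fun b _ => by rw [mul_left_comm, ← hg b]

variable {A B : ℤ} (hD : 4 * (A : ℚ) ^ 3 + 27 * (B : ℚ) ^ 2 ≠ 0) {G σ : Type} [Group G]

theorem spn (ρ : G →* M2 O) (h : ∀ g, ∃ k, ∃ x : Oˣ, ρ k = (x : O) • (X4M.TE.mt hD g).map ζ) :
    ∃ e : ℕ, ∀ Y, (pp : O) ^ e • Y ∈ span O (range ρ) := by
  obtain ⟨e, he⟩ := abs hD
  have k : ∀ X ∈ span ℤ_[pp] (range (X4M.TE.mt hD)), X.map ζ ∈ span O (range ρ) := fun X m => by
    induction m using span_induction with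
    | mem _ m =>
      obtain ⟨g, rfl⟩ := m
      obtain ⟨k, x, e⟩ := h g
      have := smul_mem _ (x⁻¹ : Oˣ).1 (subset_span (R := O) (mem_range_self (f := ρ) k))
      rwa [e, smul_smul, Units.inv_mul, one_smul] at this
    | zero => rw [Matrix.map_zero _ (map_zero _)]; exact zero_mem _
    | add _ _ _ _ x y => rw [Matrix.map_add _ (map_add _)]; exact add_mem x y
    | smul r _ _ x => rw [Matrix.map_smul' _ _ _ (map_mul _)]; exact smul_mem _ _ x
  refine ⟨e, fun Y => ?_⟩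
  rw [matrix_eq_sum_single Y, Finset.smul_sum]
  refine sum_mem fun i _ => ?_
  rw [Finset.smul_sum]
  refine sum_mem fun j _ => ?_
  have := smul_mem _ (Y i j) (k _ (he (single i j 1)))
  rwa [Matrix.map_smul' _ _ _ (map_mul _), map_single, map_one, map_pow, map_natCast, smul_comm,
    smul_single, smul_eq_mul, mul_one] at this

/-- **the global fields of one side** -/
theorem gl_ok (γ : Gl O G σ) (H : Subgroup G) (τ c z : G) {u c₀ : GQ} {gp v : Fin 2 → ℤ_[pp]}
    (R : Rt ζ w s) (w0 : w ≠ 0) (w4 : w ≠ 4) (d : (X4M.TE.mt hD u).det = 1) (t : (X4M.TE.mt hD u).trace = 2 - w)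
    (hH : ∀ h ∈ H, γ.ρ h = 1) (hz : γ.ρ z = (1 + s) • 1) (hz' : ∀ g, z * g * z⁻¹ * g⁻¹ ∈ H)
    (hk : ∀ g, ∃ k, ∃ x : Oˣ, γ.ρ k = (x : O) • (X4M.TE.mt hD g).map ζ)
    (hτ : γ.ρ τ = (1 + s) • (X4M.TE.mt hD u).map ζ) (hc : γ.ρ c = (X4M.TE.mt hD c₀).map ζ)
    (e : 1 + X4M.TE.mt hD c₀ = vecMulVec gp v) (hg : γ.gp = ζ ∘ gp) : γ.Ok H τ c where
  ρH := hH
  sah := ⟨z, _, hz, by rw [add_sub_cancel_left]; exact R.un w0, hz'⟩
  spn Y := (spn hD γ.ρ hk).imp fun _ h => h Y
  det := hτ ▸ R.det d t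
  tr := hτ ▸ R.tr t w0 w4
  cj := ⟨ζ ∘ v, by
    rw [hc, hg]
    ext i j
    simpa [vecMulVec_apply, one_apply, apply_ite ζ] using congrArg (fun X => ζ (X i j)) e⟩

end Vale.Agent.P014U.Pg
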